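import Vale.Agent.P095.Amen.Letters.Basic
import Vale.Agent.P101.Bridge.AllDrops

/-!
# P095 letters: one bank with two forced ends of a common class
-/

namespace Vale.Agent.P095.Amen.Letters

open Vale.Agent.P101.KR Vale.Agent.P101.Bridge Vale.Agent.P095.Amen.Coin Finset

noncomputable section

variable {F : Type} [CStarAlgebra F]

/-- Witnesses of fullness give a cut with a uniform value. -/
theorem exists_value [PartialOrder F] [StarOrderedRing F] {a : F} (ha0 : 0 ≤ a) (ha1 : a ≤ 1)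
    {K : ℕ} (y : Fin K → F) (hy : ∑ i, star (y i) * a * y i = 1) :
    ∃ δ : ℝ, 0 < δ ∧ δ < 1 ∧ FullPos (bump δ a) ∧ DGe (bump δ a) (1 / ((K : ℝ) + 1)) := by
  set M := ∑ i, ‖y i‖ ^ 2
  have hM : 0 ≤ M := sum_nonneg fun i _ => sq_nonneg _
  set δ := 1 / (2 * (M + 1)) with hδdef
  have hδ : 0 < δ := by positivity
  have hδ1 : δ < 1 := by rw [hδdef, div_lt_one (by positivity)]; linarith
  set v := bump δ a
  have hv0 : 0 ≤ v := cfc_nonneg fun t _ => le_min zero_le_one (le_max_left _ _)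
  have hle : a ≤ v + δ • 1 := by
    simp only [v, bump]
    rw [← Algebra.algebraMap_eq_smul_one, ← cfc_add_const ..]
    conv_lhs => rw [← cfc_id' ℝ a]
    refine cfc_mono fun t ht => ?_
    have ht1 : t ≤ 1 := (CFC.le_one_iff a).1 ha1 t ht
    rcases le_or_gt δ t with h | h
    · rw [bump_eq_one hδ h]; linarith
    · have : 0 ≤ min 1 (max 0 ((t - δ / 2) / (δ / 2))) := le_min zero_le_one (le_max_left _ _)
      linarith
  have h1 : (1 : F) ≤ (∑ i, star (y i) * v * y i) + (1 / 2 : ℝ) • (1 : F) := by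
    rw [← hy]
    refine (sum_le_sum fun i _ => star_left_conjugate_le_conjugate hle (y i)).trans ?_
    simp only [mul_add, add_mul, sum_add_distrib, mul_smul_comm, smul_mul_assoc, mul_one,
      ← smul_sum, hy]
    refine add_le_add le_rfl ?_
    refine le_trans (smul_le_smul_of_nonneg_left (b₂ := M • (1 : F)) ?_ hδ.le) ?_
    · simp only [M, sum_smul]
      refine sum_le_sum fun i _ => ?_
      rw [← Algebra.algebraMap_eq_smul_one, sq, ← CStarRing.norm_star_mul_self]
      exact (IsSelfAdjoint.star_mul_self _).le_algebraMap_norm_self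
    · rw [smul_smul]
      refine smul_le_smul_of_nonneg_right ?_ zero_le_one
      rw [hδdef, div_mul_eq_mul_div, div_le_div_iff₀ (by positivity) (by norm_num)]
      linarith
  refine ⟨δ, hδ, hδ1, fullPos_of_one_le (IsSelfAdjoint.of_nonneg hv0) y (by norm_num) h1,
    insert v (Set.range y), (Set.countable_range y).insert v,
    posIn_of_nonneg (isClosed_Cl _) (subset_Cl _ (Set.mem_insert v _)) hv0, fun d => ?_⟩
  have := one_le_dim_sum (isClosed_Cl _) d (fun _ : Fin K => v) y (fun _ => hv0)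
    (fun _ => subset_Cl _ (Set.mem_insert v _))
    (fun i => subset_Cl _ (Set.mem_insert_of_mem v ⟨i, rfl⟩)) (by norm_num) h1
  simp only [sum_const, card_univ, Fintype.card_fin, nsmul_eq_mul] at this
  rw [div_le_iff₀ (by positivity)]
  nlinarith

/-- The bank. -/
structure Bank (σ : F ≃⋆ₐ[ℂ] F) (c θ : ℝ) where
  s : Set F
  countable : s.Countable
  invariant : σ '' s = s
  T : Cl s
  eh : Cl s
  el : Cl s
  wh : Cl s
  wl : Cl s
  δ : ℝ
  δ_pos : 0 < δ
  fix_T : σ T = T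
  T_nonneg : SqLe 0 (T : F)
  T_le : SqLe (T : F) 1
  eh_nonneg : SqLe 0 (eh : F)
  el_nonneg : SqLe 0 (el : F)
  wh_eq : star wh * wh = eh
  wl_eq : star wl * wl = el
  wh_top : ∀ τ : ℝ, 0 < τ → τ < 1 / 4 → bump (1 - τ) (T : F) * (wh : F) = wh
  wl_low : ∀ τ : ℝ, 0 < τ → τ < 1 / 4 → bump (1 - τ) (1 - (T : F)) * (wl : F) = wl
  values : ∀ d : Dim (Cl s), c ≤ d.d (cut δ (eh : F)) ∧ d.d (eh : F) ≤ c + θ ∧
    c ≤ d.d (cut δ (el : F)) ∧ d.d (el : F) ≤ c + θ
  eh_full : FullPos eh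
  el_full : FullPos el

/-- Comparison moves an element of known class under a plateau. -/
theorem exists_end (hC : CompareTarget) {σ : F ≃⋆ₐ[ℂ] F} (hS : Setting σ) [PartialOrder F]
    [StarOrderedRing F] {v : F} {r : ℝ} (hv : FullPos v) (hr : DGe v r) {N : ℕ} [NeZero N]
    (D : DropDataN N F) (S : Finset (Fin N)) (h0 : (0 : Fin N) ∈ S) (hlt : (S.card : ℝ) / N < r) :
    ∃ x : F, (∃ η : ℝ, 0 < η ∧ bump η v * x = x) ∧
      star x * x = cut (1 / 8) (∑ a ∈ S, D.P a a) ∧
      ∃ (K : ℕ) (y : Fin K → F), ∑ i, star (y i) * (star x * x) * y i = 1 := by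
  set e := ∑ a ∈ S, D.P a a
  have he : 0 ≤ e := sum_nonneg fun a _ => P_nonneg D a
  set B : Set F := Set.range (fun p : Fin N × Fin N => D.P p.1 p.2) ∪ {D.v}
  have hB : EntriesIn D (Cl B) :=
    ⟨fun a b => subset_Cl _ (Or.inl ⟨(a, b), rfl⟩), subset_Cl _ (Or.inr rfl)⟩
  have hDLe : DLe (cut (1 / 16) e) (S.card / N) :=
    ⟨B, (Set.countable_range _).union (Set.countable_singleton _),
      posIn_of_nonneg (isClosed_Cl _) (cut_mem (isClosed_Cl _) (sum_mem fun a _ => hB.1 a a) _)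
        (cut_nonneg' _ _),
      fun d => (dim_block D (isClosed_Cl _) hB d S (by norm_num)).1⟩
  obtain ⟨x, η, hη, hx, hbx⟩ := hC F (hasCopies hS) hS.central hS.noChar (cut (1 / 16) e) v
    (S.card / N) r (1 / 16) hv hDLe hr hlt (by norm_num)
  rw [cut_cut (IsSelfAdjoint.of_nonneg he) (by norm_num), show (1 / 16 : ℝ) + 1 / 16 = 1 / 8 by norm_num] at hx
  refine ⟨x, ⟨η, hη, hbx⟩, hx, ?_⟩
  rw [hx]
  exact fullPos_of_P_le D (IsSelfAdjoint.of_nonneg (cut_nonneg' _ _)) (by norm_num) (by norm_num)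
    ((single_le_sum (fun a _ => P_nonneg D a) h0).trans (le_cut_add (IsSelfAdjoint.of_nonneg he) _))

/-- A bank exists; its element is fixed by whatever fixes `a` and `b`. -/
theorem exists_bank (hC : CompareTarget) (σ : F ≃⋆ₐ[ℂ] F) (hS : Setting σ) (a b : F)
    (hσa : σ a = a) (hσb : σ b = b) (ha0 : SqLe 0 a) (hb0 : SqLe 0 b) (ha1 : SqLe a 1)
    (hb1 : SqLe b 1) (hab : a * b = 0) (haf : FullPos a) (hbf : FullPos b) :
    ∃ c : ℝ, 0 < c ∧ c ≤ 1 / 3 ∧ ∀ θ : ℝ, 0 < θ → ∃ B : Bank σ c θ,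
      ∀ τ : F ≃⋆ₐ[ℂ] F, τ a = a → τ b = b → τ B.T = B.T := by
  let _ : PartialOrder F := CStarAlgebra.spectralOrder F
  have : StarOrderedRing F := CStarAlgebra.spectralOrderedRing F
  rw [sqLe_iff] at ha0 hb0 ha1 hb1
  obtain ⟨Ka, ya, hya⟩ := haf
  obtain ⟨Kb, yb, hyb⟩ := hbf
  obtain ⟨δa, hδa, hδa1, hva, hda⟩ := exists_value ha0 ha1 ya hya
  obtain ⟨δb, hδb, hδb1, hvb, hdb⟩ := exists_value hb0 hb1 yb hyb
  set p : ℕ := 3 + 2 * Ka + 2 * Kb with hp
  have hpR : (p : ℝ) = 3 + 2 * Ka + 2 * Kb := by simp [hp]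
  refine ⟨1 / p, by positivity, ?_, fun θ hθ => ?_⟩
  · rw [hpR, div_le_div_iff₀ (by positivity) (by norm_num)]
    linarith [(Nat.cast_nonneg Ka : (0 : ℝ) ≤ Ka), (Nat.cast_nonneg Kb : (0 : ℝ) ≤ Kb)]
  obtain ⟨M, hM⟩ := exists_nat_gt (max 2 (1 / θ))
  have hM2 : 2 < (M : ℝ) := lt_of_le_of_lt (le_max_left _ _) hM
  have hM2' : 2 < M := by exact_mod_cast hM2
  set N := p * M with hN
  have : NeZero N := ⟨Nat.mul_ne_zero (by omega) (by omega)⟩
  have hN2 : 2 ≤ N := le_trans (by omega : 2 ≤ M) (Nat.le_mul_of_pos_left M (by omega))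
  obtain ⟨D⟩ := allDrops_of F (hasCopies hS) hS.noChar N hN2
  have hcard : M + 1 ≤ N := by
    have : 2 * M ≤ p * M := Nat.mul_le_mul_right M (by omega)
    omega
  set S : Finset (Fin N) := (Finset.univ : Finset (Fin (M + 1))).map (Fin.castLEEmb hcard) with hSdef
  have hS0 : (0 : Fin N) ∈ S := by
    rw [hSdef, Finset.mem_map]; exact ⟨0, mem_univ _, Fin.ext rfl⟩
  have hScard : (S.card : ℝ) = M + 1 := by simp [hSdef]
  have hNR : (N : ℝ) = p * M := by simp [hN]
  have hlt : ∀ K : ℕ, K ≤ Ka + Kb → (S.card : ℝ) / N < 1 / ((K : ℝ) + 1) := fun K hK => by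
    rw [hScard, hNR, div_lt_div_iff₀ (by positivity) (by positivity)]
    have : (K : ℝ) ≤ Ka + Kb := by exact_mod_cast hK
    rw [hpR]
    nlinarith
  obtain ⟨xh, ⟨η, hη, hxh⟩, hxh2, Kh, yh, hyh⟩ := exists_end hC hS hva hda D S hS0 (hlt Ka (by omega))
  obtain ⟨xl, ⟨ζ, hζ, hxl⟩, hxl2, Kl, yl, hyl⟩ := exists_end hC hS hvb hdb D S hS0 (hlt Kb (by omega))
  set A := bump (δa / 2) a with hA
  set B := bump (δb / 2) b with hB
  have hsa : IsSelfAdjoint a := IsSelfAdjoint.of_nonneg ha0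
  have hsb : IsSelfAdjoint b := IsSelfAdjoint.of_nonneg hb0
  have plateau : ∀ {u w : F} {ε ρ : ℝ}, IsSelfAdjoint u → 0 < ε → 0 < ρ →
      bump ρ (bump ε u) * w = w → bump (ε / 2) u * w = w := fun {u w ε ρ} hu hε hρ hw => by
    have e : bump (ε / 2) u * bump ρ (bump ε u) = bump ρ (bump ε u) := by
      simp only [bump]
      rw [← cfc_comp' _ _ u (continuous_bump ρ).continuousOn (continuous_bump ε).continuousOn]
      refine (cfc_mul _ _ u (continuous_bump (ε / 2)).continuousOn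
        (show ContinuousOn _ _ from ((continuous_bump ρ).comp (continuous_bump ε)).continuousOn)).symm.trans ?_
      refine cfc_congr fun t _ => ?_
      simp only [Function.comp_apply]
      rcases le_or_gt (ε / 2) t with ht | ht
      · rw [bump_eq_one (by linarith) ht, one_mul]
      · rw [bump_eq_zero hε ht.le, bump_eq_zero hρ (by linarith)]; ring
    rw [← hw, ← mul_assoc, e]
  have hAx : A * xh = xh := plateau hsa hδa hη hxh
  have hBx : B * xl = xl := plateau hsb hδb hζ hxl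
  have hAB : A * B = 0 := cfc_mul_cfc_eq_zero hsa hsb hab (continuous_bump _) (continuous_bump _)
    (δ := min (δa / 4) (δb / 4)) (lt_min (by linarith) (by linarith))
    (fun t ht => bump_eq_zero (by linarith) (le_trans ht ((min_le_left _ _).trans (by linarith))))
    (fun t ht => bump_eq_zero (by linarith) (le_trans ht ((min_le_right _ _).trans (by linarith))))
  have hA0 : 0 ≤ A := cfc_nonneg fun t _ => le_min zero_le_one (le_max_left _ _)
  have hB0 : 0 ≤ B := cfc_nonneg fun t _ => le_min zero_le_one (le_max_left _ _)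
  have hA1 : A ≤ 1 := cfc_le_one _ _ fun t _ => min_le_left _ _
  have hB1 : B ≤ 1 := cfc_le_one _ _ fun t _ => min_le_left _ _
  have hBA : B * A = 0 := by
    have := congrArg star hAB
    rwa [star_mul, star_zero, (IsSelfAdjoint.of_nonneg hA0).star_eq,
      (IsSelfAdjoint.of_nonneg hB0).star_eq] at this
  set T := (1 / 2 : ℝ) • (1 + A - B) with hT
  have hT0 : 0 ≤ T := smul_nonneg (by norm_num)
    (sub_nonneg.2 (hB1.trans (le_add_of_nonneg_right hA0)))
  have hT1 : T ≤ 1 := by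
    have : (1 : F) + A - B ≤ (2 : ℝ) • 1 := by
      rw [two_smul]
      exact (sub_le_self _ hB0).trans (add_le_add le_rfl hA1)
    calc T ≤ (1 / 2 : ℝ) • ((2 : ℝ) • 1) := smul_le_smul_of_nonneg_left this (by norm_num)
      _ = 1 := by rw [smul_smul]; norm_num
  have hTh : T * xh = xh := by
    have hz : B * xh = 0 := by rw [← hAx, ← mul_assoc, hBA, zero_mul]
    rw [hT, smul_mul_assoc, sub_mul, add_mul, one_mul, hAx, hz, sub_zero, ← two_smul ℝ xh, smul_smul]
    norm_num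
  have hTl : (1 - T) * xl = xl := by
    have hz : A * xl = 0 := by rw [← hBx, ← mul_assoc, hAB, zero_mul]
    rw [sub_mul, one_mul, hT, smul_mul_assoc, sub_mul, add_mul, one_mul, hz, hBx, add_zero, sub_self,
      smul_zero, sub_zero]
  have hnat : ∀ τ : F ≃⋆ₐ[ℂ] F, τ a = a → τ b = b → τ T = T := fun τ ha' hb' => by
    rw [hT, ← Complex.coe_smul, map_smul, map_sub, map_add, map_one, hA, hB, bump, bump,
      map_cfc_fix ha' _ (continuous_bump _), map_cfc_fix hb' _ (continuous_bump _)]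
  have hσT : σ T = T := hnat σ hσa hσb
  set gen : Set F := {T, xh, xl} ∪ Set.range yh ∪ Set.range yl ∪
    (Set.range (fun q : Fin N × Fin N => D.P q.1 q.2) ∪ {D.v})
  have hgen : gen.Countable :=
    ((((Set.to_countable _)).union (Set.countable_range _)).union (Set.countable_range _)).union
      ((Set.countable_range _).union (Set.countable_singleton _))
  set s := orbit σ gen
  have hmem : ∀ {z}, z ∈ gen → z ∈ Cl s := fun hz => subset_Cl _ (subset_orbit σ gen hz)
  have hD : EntriesIn D (Cl s) :=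
    ⟨fun i j => hmem (Or.inr (Or.inl ⟨(i, j), rfl⟩)), hmem (Or.inr (Or.inr rfl))⟩
  let wh : Cl s := ⟨xh, hmem (Or.inl (Or.inl (Or.inl (by simp))))⟩
  let wl : Cl s := ⟨xl, hmem (Or.inl (Or.inl (Or.inl (by simp))))⟩
  have full : ∀ {K : ℕ} (y : Fin K → F) (w : Cl s), (∀ i, y i ∈ Cl s) →
      ∑ i, star (y i) * (star (w : F) * w) * y i = 1 → FullPos (star w * w) := fun {K} y w hy h =>
    ⟨K, fun i => ⟨y i, hy i⟩, Subtype.ext (by push_cast; exact h)⟩
  have value : ∀ d : Dim (Cl s), ∀ x : F, star x * x = cut (1 / 8) (∑ i ∈ S, D.P i i) →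
      1 / (p : ℝ) ≤ d.d (cut (1 / 8) (star x * x)) ∧ d.d (star x * x) ≤ 1 / (p : ℝ) + θ := by
    intro d x hx
    obtain ⟨hup, hlow⟩ := dim_block D (isClosed_Cl s) hD d S (δ := 1 / 8) (by norm_num)
    have hlow' := (dim_block D (isClosed_Cl s) hD d S (δ := 1 / 4) (by norm_num)).2 (by norm_num)
    rw [hx, cut_cut (IsSelfAdjoint.of_nonneg (sum_nonneg fun i _ => P_nonneg D i)) (by norm_num),
      show (1 / 8 : ℝ) + 1 / 8 = 1 / 4 by norm_num]
    refine ⟨le_of_eq_of_le ?_ hlow', hup.trans ?_⟩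
    · rw [hScard, hNR, add_sub_cancel_right]; field_simp
    · rw [hScard, hNR, add_div, show (M : ℝ) / (p * M) = 1 / p by field_simp]
      refine add_le_add le_rfl ?_
      rw [div_le_iff₀ (by positivity)]
      have h1 : 1 < θ * M := by
        have := lt_of_le_of_lt (le_max_right _ _) hM
        rwa [div_lt_iff₀ hθ, mul_comm] at this
      have h2 : (1 : ℝ) ≤ p := by exact_mod_cast (by omega : 1 ≤ p)
      nlinarith
  exact ⟨{
    s := s
    countable := countable_orbit σ hgen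
    invariant := map_orbit σ gen
    T := ⟨T, hmem (Or.inl (Or.inl (Or.inl (by simp))))⟩
    eh := star wh * wh
    el := star wl * wl
    wh := wh
    wl := wl
    δ := 1 / 8
    δ_pos := by norm_num
    fix_T := hσT
    T_nonneg := sqLe_iff.2 hT0
    T_le := sqLe_iff.2 hT1
    eh_nonneg := sqLe_iff.2 (star_mul_self_nonneg xh)
    el_nonneg := sqLe_iff.2 (star_mul_self_nonneg xl)
    wh_eq := rfl
    wl_eq := rfl
    wh_top := fun τ h1 h2 => cfc_mul_of_fix (IsSelfAdjoint.of_nonneg hT0) hTh (continuous_bump _)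
      (τ := τ) h1 fun t ht => bump_eq_one (by linarith) ht
    wl_low := fun τ h1 h2 => cfc_mul_of_fix ((IsSelfAdjoint.one F).sub (IsSelfAdjoint.of_nonneg hT0))
      hTl (continuous_bump _) (τ := τ) h1 fun t ht => bump_eq_one (by linarith) ht
    values := fun d => ⟨(value d xh hxh2).1, (value d xh hxh2).2, (value d xl hxl2).1,
      (value d xl hxl2).2⟩
    eh_full := full yh wh (fun i => hmem (Or.inl (Or.inl (Or.inr ⟨i, rfl⟩)))) hyh
    el_full := full yl wl (fun i => hmem (Or.inl (Or.inr ⟨i, rfl⟩))) hyl }, hnat⟩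

end

end Vale.Agent.P095.Amen.Letters
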