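import Vale.Agent.P095.Amen.Coin.Drop
import Vale.Agent.P101.KR.Base

/-!
# P095 letters: orbits, copies, states and functions of fixed elements
-/

namespace Vale.Agent.P095.Amen.Letters

open Vale.Agent.P101.KR Vale.Agent.P095.Amen.Coin

noncomputable section

variable {F : Type} [CStarAlgebra F] (σ : F ≃⋆ₐ[ℂ] F)

/-- The orbit of a set under an automorphism. -/
def orbit (s : Set F) : Set F :=
  (⋃ n : ℕ, (⇑σ)^[n] '' s) ∪ ⋃ n : ℕ, (⇑σ.symm)^[n] '' s

theorem subset_orbit (s : Set F) : s ⊆ orbit σ s := fun x hx =>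
  Or.inl (Set.mem_iUnion.2 ⟨0, x, hx, rfl⟩)

theorem countable_orbit {s : Set F} (hs : s.Countable) : (orbit σ s).Countable :=
  (Set.countable_iUnion fun _ => hs.image _).union (Set.countable_iUnion fun _ => hs.image _)

theorem map_orbit (s : Set F) : σ '' orbit σ s = orbit σ s := by
  have step : ∀ (τ : F ≃⋆ₐ[ℂ] F) (x : F) (n : ℕ), x ∈ (⇑τ)^[n] '' s →
      τ x ∈ (⇑τ)^[n + 1] '' s := fun τ x n ⟨y, hy, e⟩ =>
    ⟨y, hy, by rw [Function.iterate_succ_apply', e]⟩
  have back : ∀ (τ : F ≃⋆ₐ[ℂ] F) (x : F) (n : ℕ), x ∈ (⇑τ)^[n + 1] '' s →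
      τ.symm x ∈ (⇑τ)^[n] '' s := fun τ x n ⟨y, hy, e⟩ =>
    ⟨y, hy, by rw [← e, Function.iterate_succ_apply', τ.symm_apply_apply]⟩
  apply Set.Subset.antisymm
  · rintro _ ⟨x, hx, rfl⟩
    rcases hx with hx | hx <;> obtain ⟨n, hn⟩ := Set.mem_iUnion.1 hx
    · exact Or.inl (Set.mem_iUnion.2 ⟨n + 1, step σ x n hn⟩)
    · rcases n with _ | n
      · obtain ⟨y, hy, rfl⟩ := hn
        exact Or.inl (Set.mem_iUnion.2 ⟨1, y, hy, rfl⟩)
      · exact Or.inr (Set.mem_iUnion.2 ⟨n, by simpa using back σ.symm x n hn⟩)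
  · intro x hx
    refine ⟨σ.symm x, ?_, σ.apply_symm_apply x⟩
    rcases hx with hx | hx <;> obtain ⟨n, hn⟩ := Set.mem_iUnion.1 hx
    · rcases n with _ | n
      · obtain ⟨y, hy, rfl⟩ := hn
        exact Or.inr (Set.mem_iUnion.2 ⟨1, y, hy, rfl⟩)
      · exact Or.inl (Set.mem_iUnion.2 ⟨n, back σ x n hn⟩)
    · exact Or.inr (Set.mem_iUnion.2 ⟨n + 1, step σ.symm x n hn⟩)

/-- A setting has commuting copies. -/
theorem hasCopies {σ : F ≃⋆ₐ[ℂ] F} (h : Setting σ) : HasCopies F := fun s hs m => by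
  obtain ⟨κ⟩ := h.copies (orbit σ s) (countable_orbit σ hs) (map_orbit σ s)
  exact ⟨⟨fun i => (κ.hom i).comp (StarSubalgebra.inclusion (Cl_mono (subset_orbit σ s))),
    fun i j hij a b => κ.comm i j (fun e => hij (Fin.ext e)) _ _⟩⟩

variable {σ}

theorem map_cfc_fix {a : F} (h : σ a = a) (f : ℝ → ℝ) (hf : Continuous f) :
    σ (cfc f a) = cfc f a := by
  by_cases ha : IsSelfAdjoint a
  · have hc : Continuous σ.toStarAlgHom :=
      AddMonoidHomClass.continuous_of_bound σ.toStarAlgHom 1 fun y => by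
        simpa using NonUnitalStarAlgHom.norm_apply_le σ.toStarAlgHom y
    have := StarAlgHom.map_cfc (σ.toStarAlgHom) f a hf.continuousOn hc ha (ha.map _)
    simpa [show σ.toStarAlgHom a = a from h] using this
  · rw [cfc_apply_of_not_predicate a ha, map_zero]

/-- A function equal to one from `1 - τ` on does not move what `T` fixes. -/
theorem cfc_mul_of_fix {T w : F} (hT : IsSelfAdjoint T) (hw : T * w = w) {f : ℝ → ℝ}
    (hf : Continuous f) {τ : ℝ} (hτ : 0 < τ) (h1 : ∀ t, 1 - τ ≤ t → f t = 1) :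
    cfc f T * w = w := by
  set h : ℝ → ℝ := fun t => (f t - 1) / min (t - 1) (-τ)
  have hne : ∀ t : ℝ, min (t - 1) (-τ) ≠ 0 := fun t =>
    (lt_of_le_of_lt (min_le_right _ _) (neg_lt_zero.2 hτ)).ne
  have hh : Continuous h := (hf.sub continuous_const).div (by fun_prop) hne
  have e : cfc f T = cfc h T * (T - 1) + 1 := by
    have h2 : T - 1 = cfc (fun t : ℝ => t - 1) T := by
      rw [cfc_sub (fun t : ℝ => t) (fun _ => (1 : ℝ)) T continuous_id.continuousOn continuousOn_const,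
        cfc_id' ℝ T, cfc_const_one ℝ T]
    have h3 : (1 : F) = cfc (fun _ : ℝ => (1 : ℝ)) T := (cfc_const_one ℝ T).symm
    rw [h2, h3, ← cfc_mul h (fun t => t - 1) T hh.continuousOn
      (continuous_id.sub continuous_const).continuousOn,
      ← cfc_add (a := T) (f := fun t => h t * (t - 1)) (g := fun _ => (1 : ℝ))
        (hh.mul (continuous_id.sub continuous_const)).continuousOn continuousOn_const]
    refine cfc_congr fun t _ => ?_
    simp only [h]
    rcases le_or_gt (1 - τ) t with ht | ht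
    · simp [h1 t ht]
    · rw [min_eq_left (by linarith), div_mul_cancel₀ _ (by linarith : t - 1 ≠ 0)]
      ring
  rw [e, add_mul, mul_assoc, sub_mul, hw, one_mul, sub_self, mul_zero, zero_add]

theorem continuous_bump (η : ℝ) :
    Continuous fun t : ℝ => min 1 (max 0 ((t - η / 2) / (η / 2))) := by fun_prop

theorem bump_eq_one {η t : ℝ} (hη : 0 < η) (h : η ≤ t) :
    min 1 (max 0 ((t - η / 2) / (η / 2))) = 1 := by
  rw [max_eq_right (div_nonneg (by linarith) (by linarith)), min_eq_left]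
  rw [one_le_div (by linarith)]; linarith

theorem bump_eq_zero {η t : ℝ} (hη : 0 < η) (h : t ≤ η / 2) :
    min 1 (max 0 ((t - η / 2) / (η / 2))) = 0 := by
  rw [max_eq_left (div_nonpos_of_nonpos_of_nonneg (by linarith) (by linarith)),
    min_eq_right zero_le_one]

/-- Functions vanishing at zero of orthogonal self-adjoint elements are orthogonal. -/
theorem cfc_mul_cfc_eq_zero {a b : F} (ha : IsSelfAdjoint a) (hb : IsSelfAdjoint b)
    (hab : a * b = 0) {f g : ℝ → ℝ} (hf : Continuous f) (hg : Continuous g)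
    {δ : ℝ} (hδ : 0 < δ) (hf0 : ∀ t, t ≤ δ → f t = 0) (hg0 : ∀ t, t ≤ δ → g t = 0) :
    cfc f a * cfc g b = 0 := by
  have key : ∀ (c : F) (u : ℝ → ℝ), IsSelfAdjoint c → Continuous u → (∀ t, t ≤ δ → u t = 0) →
      ∃ v, Continuous v ∧ cfc u c = cfc v c * c ∧ cfc u c = c * cfc v c := fun c u hc hu hu0 => by
    have hv : Continuous fun t => u t / max t δ := hu.div (by fun_prop) fun t =>
      (lt_of_lt_of_le hδ (le_max_right t δ)).ne'
    have h1 : cfc (fun t => u t / max t δ * t) c = cfc u c := cfc_congr fun t _ => by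
      rcases le_or_gt t δ with ht | ht
      · simp [hu0 t ht]
      · simp only [max_eq_left ht.le]; field_simp [(hδ.trans ht).ne']
    refine ⟨fun t => u t / max t δ, hv, ?_, ?_⟩
    · rw [← h1, cfc_mul (fun t => u t / max t δ) (fun t : ℝ => t) c hv.continuousOn
        continuous_id.continuousOn, cfc_id' ℝ c]
    · rw [← h1, show (fun t => u t / max t δ * t) = fun t => t * (u t / max t δ) from
        funext fun t => mul_comm _ _, cfc_mul (fun t : ℝ => t) (fun t => u t / max t δ) c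
        continuous_id.continuousOn hv.continuousOn, cfc_id' ℝ c]
  obtain ⟨v, -, hv, -⟩ := key a f ha hf hf0
  obtain ⟨w, -, -, hw⟩ := key b g hb hg hg0
  rw [hv, hw, mul_assoc, ← mul_assoc a, hab, zero_mul, mul_zero]

/-- A larger generating set keeps a lower bound. -/
theorem dim_of_dge {u : F} {c : ℝ} (h : DGe u c) :
    ∃ s : Set F, s.Countable ∧ ∀ t, s ⊆ t → ∀ d : Dim (Cl t), c ≤ d.d u := by
  obtain ⟨s, hs, -, hd⟩ := h
  refine ⟨s, hs, fun t ht d => hd
    { d := d.d
      one := d.one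
      mono := fun u v hu hv hle => d.mono u v
        (fun i => ⟨Cl_mono ht (hu i).1, (hu i).2.imp fun _ hc => ⟨Cl_mono ht hc.1, hc.2⟩⟩)
        (fun i => ⟨Cl_mono ht (hv i).1, (hv i).2.imp fun _ hc => ⟨Cl_mono ht hc.1, hc.2⟩⟩)
        fun ε hε => (hle ε hε).imp fun x hx => ⟨fun j i => Cl_mono ht (hx.1 j i), hx.2⟩ }⟩

end

end Vale.Agent.P095.Amen.Letters
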