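import Vale.Agent.P095.Amen.Letters.Bank
import Vale.Agent.P095.Amen.Compare.Basic

/-!
# P095 letters: arcs of the phase of a sum of banks
-/

namespace Vale.Agent.P095.Amen.Letters

open Vale.Agent.P101.KR Vale.Agent.P095.Amen.Coin Real

noncomputable section

/-- One at distance `h₁` from `m` (modulo one, in units of `lam * t`), zero from distance `h₂` on. -/
def arcFn (lam m h₁ h₂ t : ℝ) : ℝ :=
  min 1 (max 0 ((cos (2 * π * (lam * t - m)) - cos (2 * π * h₂)) /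
    (cos (2 * π * h₁) - cos (2 * π * h₂))))

theorem continuous_arcFn (lam m h₁ h₂ : ℝ) : Continuous (arcFn lam m h₁ h₂) := by
  unfold arcFn
  fun_prop

theorem arcFn_range (lam m h₁ h₂ t : ℝ) :
    0 ≤ arcFn lam m h₁ h₂ t ∧ arcFn lam m h₁ h₂ t ≤ 1 :=
  ⟨le_min zero_le_one (le_max_left _ _), min_le_left _ _⟩

theorem arcFn_eq_one {lam m h₁ h₂ t : ℝ} (h0 : 0 ≤ h₁) (h12 : h₁ < h₂) (h2 : h₂ ≤ 1 / 2) {k : ℤ}
    (hk : |lam * t - m - k| ≤ h₁) : arcFn lam m h₁ h₂ t = 1 := by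
  have hπ := Real.pi_pos
  have hd : cos (2 * π * h₂) < cos (2 * π * h₁) :=
    cos_lt_cos_of_nonneg_of_le_pi (by positivity) (by nlinarith) (by nlinarith)
  have h1 : cos (2 * π * h₁) ≤ cos (2 * π * (lam * t - m)) := by
    rw [← Real.cos_sub_int_mul_two_pi (2 * π * (lam * t - m)) k,
      show 2 * π * (lam * t - m) - k * (2 * π) = 2 * π * (lam * t - m - k) by ring,
      ← Real.cos_abs (2 * π * (lam * t - m - k)), abs_mul, abs_of_pos (by positivity : 0 < 2 * π)]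
    exact cos_le_cos_of_nonneg_of_le_pi (by positivity) (by nlinarith) (by nlinarith)
  have h3 : (1 : ℝ) ≤ (cos (2 * π * (lam * t - m)) - cos (2 * π * h₂)) /
      (cos (2 * π * h₁) - cos (2 * π * h₂)) := by
    rw [le_div_iff₀ (by linarith)]; linarith
  rw [arcFn, max_eq_right (zero_le_one.trans h3), min_eq_left h3]

theorem exists_near_of_arcFn_ne_zero {lam m h₁ h₂ t : ℝ} (h0 : 0 ≤ h₁) (h12 : h₁ < h₂)
    (h2 : h₂ ≤ 1 / 2) (h : arcFn lam m h₁ h₂ t ≠ 0) : ∃ k : ℤ, |lam * t - m - k| < h₂ := by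
  have hπ := Real.pi_pos
  refine ⟨round (lam * t - m), ?_⟩
  by_contra hc
  push Not at hc
  have hr := abs_sub_round (lam * t - m)
  apply h
  have hd : cos (2 * π * h₂) < cos (2 * π * h₁) :=
    cos_lt_cos_of_nonneg_of_le_pi (by positivity) (by nlinarith) (by nlinarith)
  have h1 : cos (2 * π * (lam * t - m)) ≤ cos (2 * π * h₂) := by
    rw [← Real.cos_sub_int_mul_two_pi (2 * π * (lam * t - m)) (round (lam * t - m)),
      show 2 * π * (lam * t - m) - (round (lam * t - m) : ℤ) * (2 * π)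
        = 2 * π * (lam * t - m - round (lam * t - m)) by ring,
      ← Real.cos_abs (2 * π * (lam * t - m - round (lam * t - m))), abs_mul,
      abs_of_pos (by positivity : 0 < 2 * π)]
    exact cos_le_cos_of_nonneg_of_le_pi (by nlinarith) (by nlinarith) (by nlinarith)
  rw [arcFn, max_eq_left (div_nonpos_of_nonpos_of_nonneg (by linarith) (by linarith)),
    min_eq_right zero_le_one]

theorem arcFn_absorb {lam m h₁ h₂ k₁ k₂ t : ℝ} (hk0 : 0 ≤ k₁) (hk : k₁ < k₂) (hk2 : k₂ ≤ h₁)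
    (h12 : h₁ < h₂) (h2 : h₂ ≤ 1 / 2) :
    arcFn lam m k₁ k₂ t = 0 ∨ arcFn lam m h₁ h₂ t = 1 := by
  by_cases h : arcFn lam m k₁ k₂ t = 0
  · exact Or.inl h
  · obtain ⟨k, hk'⟩ := exists_near_of_arcFn_ne_zero hk0 hk (hk2.trans (h12.le.trans h2)) h
    exact Or.inr (arcFn_eq_one (hk0.trans (hk.le.trans hk2)) h12 h2 (hk'.le.trans hk2))

theorem arcFn_mul_eq_zero {lam m n h₁ h₂ k₁ k₂ : ℝ} (h0 : 0 ≤ h₁) (h12 : h₁ < h₂) (hh : h₂ ≤ 1 / 2)
    (hk0 : 0 ≤ k₁) (hk : k₁ < k₂) (hkk : k₂ ≤ 1 / 2) (hd : h₂ + k₂ ≤ n - m)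
    (hd' : h₂ + k₂ ≤ 1 - (n - m)) (t : ℝ) : arcFn lam m h₁ h₂ t * arcFn lam n k₁ k₂ t = 0 := by
  by_contra h
  obtain ⟨i, hi⟩ := exists_near_of_arcFn_ne_zero h0 h12 hh (left_ne_zero_of_mul h)
  obtain ⟨j, hj⟩ := exists_near_of_arcFn_ne_zero hk0 hk hkk (right_ne_zero_of_mul h)
  rw [abs_lt] at hi hj
  rcases le_or_gt i j with hij | hij
  · have : (i : ℝ) ≤ j := by exact_mod_cast hij
    linarith
  · have : (j : ℝ) + 1 ≤ i := by exact_mod_cast hij
    linarith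

variable {F : Type} [CStarAlgebra F] [PartialOrder F] [StarOrderedRing F] {σ : F ≃⋆ₐ[ℂ] F}

/-- What a phase element provides for the arcs. -/
structure Phase (σ : F ≃⋆ₐ[ℂ] F) (lam T : ℝ) (S : F) : Prop where
  fix : σ S = S
  sa : IsSelfAdjoint S
  arc : ∀ m h₁ h₂ : ℝ, 2 * T ≤ h₁ → h₁ < h₂ → h₂ ≤ 1 / 2 →
    DGe (cut (1 / 4) (cfc (arcFn lam m h₁ h₂) S)) (2 * h₁ - 4 * T) ∧
      FullPos (cut (1 / 4) (cfc (arcFn lam m h₁ h₂) S))

omit [PartialOrder F] [StarOrderedRing F] in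
/-- A sum of banks is a phase element. -/
theorem exists_phase (hM : MixtureTarget) (hA : AmpScalarTarget) (hS : Setting σ) {c : ℝ}
    (hc : 0 < c) (hc3 : c ≤ 1 / 3) (hB : ∀ θ : ℝ, 0 < θ → Nonempty (Bank σ c θ)) {T : ℝ}
    (hT : 0 < T) : ∃ (lam : ℝ) (S : F), Phase σ lam T S := by
  obtain ⟨R, lam, hlam, hR⟩ := hA c T hc hc3 hT
  obtain ⟨B⟩ := hB (T * (1 - c - c) / (3 * R + 3)) (by
    have : 0 < 1 - c - c := by linarith
    positivity)
  obtain ⟨κ⟩ := hS.copies B.s B.countable B.invariant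
  let κR : Copies (Cl B.s) F R :=
    ⟨fun i => κ.hom i, fun i j hij => κ.comm i j fun e => hij (Fin.ext e)⟩
  set S : F := ∑ j, κR.hom j B.T
  refine ⟨lam, S, ⟨?_, ?_, fun m h₁ h₂ h1 h12 h2 => ?_⟩⟩
  · simp only [S, map_sum]
    exact Finset.sum_congr rfl fun j _ => κ.equiv j B.T B.T B.fix_T
  · refine isSelfAdjoint_sum _ fun j _ => IsSelfAdjoint.map ?_ (κR.hom j)
    obtain ⟨d, hd⟩ := B.T_nonneg
    refine Subtype.ext ?_
    show star (B.T : F) = B.T
    rw [sub_zero] at hd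
    rw [hd, star_mul, star_star]
  set τ := min (1 / 8 : ℝ) (T / lam / (2 * (R + 1)))
  have hτ : 0 < τ := lt_min (by norm_num) (by positivity)
  have hτ4 : τ < 1 / 4 := lt_of_le_of_lt (min_le_left _ _) (by norm_num)
  have hRτ : (R : ℝ) * τ < T / lam := by
    refine lt_of_le_of_lt (mul_le_mul_of_nonneg_left (min_le_right _ _) (by positivity)) ?_
    rw [← mul_div_assoc, div_lt_iff₀ (by positivity)]
    nlinarith [div_pos hT hlam, (Nat.cast_nonneg R : (0 : ℝ) ≤ R)]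
  set G : Set ℝ := {s | ∃ k : ℤ, m - (h₁ - T) ≤ lam * s - k ∧ lam * s - k ≤ m + (h₁ - T)}
  have hψ : ∀ g ∈ G, ∀ t, |t - g| ≤ T / lam → 1 / 2 ≤ arcFn lam m h₁ h₂ t := by
    rintro g ⟨k, hk1, hk2⟩ t ht
    rw [arcFn_eq_one (by linarith) h12 h2 (k := k) ?_]
    · norm_num
    rw [abs_le] at ht ⊢
    have e : lam * (T / lam) = T := by field_simp
    constructor <;> nlinarith [mul_le_mul_of_nonneg_left ht.1 hlam.le, mul_le_mul_of_nonneg_left ht.2 hlam.le]
  obtain ⟨hval, hfull⟩ := hM F B.s R κR B.T B.eh B.el B.wh B.wl c c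
    (T * (1 - c - c) / (3 * R + 3)) τ (T / lam) B.δ G (arcFn lam m h₁ h₂) B.countable B.T_nonneg
    B.T_le B.eh_nonneg B.el_nonneg hτ hτ4 B.δ_pos hc.le hc.le (by linarith)
    (by have : 0 < 1 - c - c := (by linarith); positivity) hRτ B.wh_eq (B.wh_top τ hτ hτ4) B.wl_eq
    (B.wl_low τ hτ hτ4) B.values (continuous_arcFn ..) (arcFn_range lam m h₁ h₂) hψ
  obtain ⟨hsc, n, hn, k, hk⟩ := hR (m - (h₁ - T)) (m + (h₁ - T)) (by linarith) (by linarith)
    (by linarith)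
  refine ⟨?_, hfull B.eh_full B.el_full ⟨fun j => if (j : ℕ) < n then 1 else 0, k, ?_⟩⟩
  · obtain ⟨s, hs, hpos, hd⟩ := hval (2 * (h₁ - T) - T) fun v hv =>
      le_of_eq_of_le (by ring) (hsc v hv)
    refine ⟨s, hs, hpos, fun d => le_trans ?_ (hd d)⟩
    have : 3 * (R : ℝ) * (T * (1 - c - c) / (3 * R + 3)) / (1 - c - c) ≤ T := by
      have h3 : 0 < 1 - c - c := by linarith
      rw [div_le_iff₀ h3, mul_div_assoc', div_le_iff₀ (by positivity)]
      nlinarith [mul_pos hT h3, (Nat.cast_nonneg R : (0 : ℝ) ≤ R)]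
    linarith
  · have e : (∑ j : Fin R, (((if (j : ℕ) < n then 1 else 0 : Fin 2) : ℕ) : ℝ)) = n := by
      rw [Fin.sum_univ_eq_sum_range fun i => (((if i < n then 1 else 0 : Fin 2) : ℕ) : ℝ)]
      rw [← Finset.sum_range_add_sum_Ico _ hn,
        Finset.sum_congr rfl (fun i hi => by rw [if_pos (Finset.mem_range.1 hi)] :
          ∀ i ∈ Finset.range n, (((if i < n then 1 else 0 : Fin 2) : ℕ) : ℝ) = ((1 : Fin 2) : ℕ)),
        Finset.sum_eq_zero (s := Finset.Ico n R) fun i hi => by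
          rw [if_neg (not_lt.2 (Finset.mem_Ico.1 hi).1)]; simp]
      simp
    simpa only [e] using hk

/-- The letters cut from a phase; whatever fixes the phase fixes them. -/
theorem letters_of_phase {lam α θ : ℝ} {S : F} (hθ : 0 < θ) (hθα : θ ≤ α) (hα : α ≤ 1 / 4)
    (hS : Phase σ lam (θ / 20) S) : ∃ L : Letters σ α θ,
      ∀ τ : F ≃⋆ₐ[ℂ] F, τ S = S → ∀ u ∈ ({L.s, L.s', L.m, L.e, L.c} : Set F), τ u = u := by
  have hSsa : IsSelfAdjoint S := hS.sa
  set T := θ / 20 with hT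
  have hT0 : 0 < T := by positivity
  have hTα : 20 * T ≤ α := by linarith
  let L : ℝ → ℝ → ℝ → F := fun m h₁ h₂ => cfc (arcFn lam m h₁ h₂) S
  have hnat : ∀ τ : F ≃⋆ₐ[ℂ] F, τ S = S → ∀ m h₁ h₂, τ (L m h₁ h₂) = L m h₁ h₂ :=
    fun τ hτ m h₁ h₂ => map_cfc_fix hτ _ (continuous_arcFn ..)
  have hfix : ∀ m h₁ h₂, σ (L m h₁ h₂) = L m h₁ h₂ := hnat σ hS.fix
  have hmul : ∀ m h₁ h₂ n k₁ k₂, L m h₁ h₂ * L n k₁ k₂
      = cfc (fun t => arcFn lam m h₁ h₂ t * arcFn lam n k₁ k₂ t) S := fun m h₁ h₂ n k₁ k₂ =>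
    (cfc_mul _ _ S (continuous_arcFn ..).continuousOn (continuous_arcFn ..).continuousOn).symm
  have hzero : ∀ m h₁ h₂ n k₁ k₂, 0 ≤ h₁ → h₁ < h₂ → h₂ ≤ 1 / 2 → 0 ≤ k₁ → k₁ < k₂ → k₂ ≤ 1 / 2 →
      h₂ + k₂ ≤ n - m → h₂ + k₂ ≤ 1 - (n - m) → L m h₁ h₂ * L n k₁ k₂ = 0 :=
    fun m h₁ h₂ n k₁ k₂ a b c d e f g i => by
      rw [hmul, ← cfc_const_zero ℝ S]
      exact cfc_congr fun t _ => arcFn_mul_eq_zero a b c d e f g i t
  have habs : ∀ m h₁ h₂ k₁ k₂, 0 ≤ k₁ → k₁ < k₂ → k₂ ≤ h₁ → h₁ < h₂ → h₂ ≤ 1 / 2 →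
      L m h₁ h₂ * L m k₁ k₂ = L m k₁ k₂ := fun m h₁ h₂ k₁ k₂ a b c d e => by
    rw [hmul]
    exact cfc_congr fun t _ => by
      rcases arcFn_absorb (lam := lam) (m := m) (t := t) a b c d e with h | h
      · rw [h, mul_zero]
      · rw [h, one_mul]
  have hnn : ∀ m h₁ h₂, 0 ≤ L m h₁ h₂ := fun m h₁ h₂ =>
    cfc_nonneg fun t _ => (arcFn_range lam m h₁ h₂ t).1
  have hle1 : ∀ m h₁ h₂, L m h₁ h₂ ≤ 1 := fun m h₁ h₂ =>
    cfc_le_one _ _ fun t _ => (arcFn_range lam m h₁ h₂ t).2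
  -- an inner arc bounds a cut of the outer one from below
  have hcut : ∀ m h₁ h₂ k₁ k₂ r, r ≤ 3 / 4 → 0 ≤ k₁ → k₁ < k₂ → k₂ ≤ h₁ → h₁ < h₂ → h₂ ≤ 1 / 2 →
      cut (1 / 4) (L m k₁ k₂) ≤ (4 : ℝ) • cut r (L m h₁ h₂) := fun m h₁ h₂ k₁ k₂ r hr a b c d e => by
    simp only [cut, L]
    have hc : ∀ u v w, Continuous fun t : ℝ => max (arcFn lam m u v t - w) 0 := fun u v w =>
      ((continuous_arcFn ..).sub continuous_const).max continuous_const
    rw [← cfc_comp' _ _ S (by fun_prop) (continuous_arcFn ..).continuousOn,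
      ← cfc_comp' _ _ S (by fun_prop) (continuous_arcFn ..).continuousOn,
      ← cfc_smul (4 : ℝ) _ S (hc h₁ h₂ r).continuousOn]
    refine cfc_mono (fun t _ => ?_) (hc k₁ k₂ _).continuousOn
      ((hc h₁ h₂ r).const_smul (4 : ℝ)).continuousOn
    rcases arcFn_absorb (lam := lam) (m := m) (t := t) a b c d e with h | h
    · rw [h, zero_sub, max_eq_right (by norm_num), smul_eq_mul]
      positivity
    · rw [h, smul_eq_mul, max_eq_left (by linarith : (0 : ℝ) ≤ 1 - r)]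
      exact max_le (by linarith [(arcFn_range lam m k₁ k₂ t).2]) (by linarith)
  have hconj : ∀ u : F, (4 : ℝ) • u = star ((2 : ℝ) • (1 : F)) * u * ((2 : ℝ) • (1 : F)) := fun u => by
    simp [smul_smul]; norm_num
  have hfull : ∀ {u v : F}, FullPos u → 0 ≤ v → u ≤ (4 : ℝ) • v → FullPos v := fun {u v} hu hv h =>
    fullPos_of_le_conj hu (IsSelfAdjoint.of_nonneg hv) (h.trans_eq (hconj v))
  have hval : ∀ {u v : F} {r : ℝ}, DGe u r → 0 ≤ u → 0 ≤ v → u ≤ (4 : ℝ) • v →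
      (∀ t : Set F, S ∈ Cl t → v ∈ Cl t) → DGe v r := fun {u v r} hu hu0 hv0 h hmem => by
    obtain ⟨w, hw, hd⟩ := dim_of_dge hu
    obtain ⟨w', hw', hp', -⟩ := hu
    have hsub : w ⊆ insert S (w ∪ w') := fun z hz => Set.mem_insert_of_mem _ (Or.inl hz)
    have huB : u ∈ Cl (insert S (w ∪ w')) :=
      Cl_mono (fun z hz => Set.mem_insert_of_mem S (Or.inr hz)) hp'.1
    have hvB := hmem _ (subset_Cl _ (Set.mem_insert S (w ∪ w')))
    refine ⟨_, (hw.union hw').insert S, posIn_of_nonneg (isClosed_Cl _) hvB hv0, fun d => ?_⟩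
    exact (hd _ hsub d).trans (d.mono_smul (posIn_of_nonneg (isClosed_Cl _) huB hu0)
      (posIn_of_nonneg (isClosed_Cl _) hvB hv0) (by norm_num) (sqLe_iff.2 h))
  have hLmem : ∀ m h₁ h₂ (t : Set F), S ∈ Cl t → L m h₁ h₂ ∈ Cl t := fun m h₁ h₂ t ht =>
    cfc_mem' (isClosed_Cl t) ht _
  set ms := α / 2 with hms
  set cc := α / 2 + 1 / 4 with hcc
  set hc := 1 / 4 - α / 2 - 2 * T with hhc
  have hs0 := hS.arc ms (α / 2 - 3 * T) (α / 2 - 2 * T) (by linarith) (by linarith) (by linarith)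
  have hm0 := hS.arc (3 / 4) (1 / 4 - 7 * T) (1 / 4 - 6 * T) (by linarith) (by linarith) (by linarith)
  have hc0 := hS.arc cc (hc / 2) hc (by linarith) (by linarith) (by linarith)
  have hu := hS.arc (ms + 1 / 2) (1 / 2 - α / 2 - 2 * T) (1 / 2 - α / 2 - T) (by linarith) (by linarith)
    (by linarith)
  refine ⟨{
    s := L ms (α / 2 - T) (α / 2)
    s' := L ms (α / 2) (α / 2 + T)
    m := L (3 / 4) (1 / 4 - 5 * T) (1 / 4 - 4 * T)
    e := L (3 / 4) (1 / 4 - 3 * T) (1 / 4 - 2 * T)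
    c := L cc (hc / 2) hc
    fix_s := hfix _ _ _
    fix_s' := hfix _ _ _
    fix_m := hfix _ _ _
    fix_e := hfix _ _ _
    fix_c := hfix _ _ _
    pos := ?_
    comm := ?_
    s'_s := habs _ _ _ _ _ (by linarith) (by linarith) le_rfl (by linarith) (by linarith)
    e_m := habs _ _ _ _ _ (by linarith) (by linarith) (by linarith) (by linarith) (by linarith)
    s'_e := hzero _ _ _ _ _ _ (by linarith) (by linarith) (by linarith) (by linarith) (by linarith)
      (by linarith) (by linarith) (by linarith)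
    s'_c := hzero _ _ _ _ _ _ (by linarith) (by linarith) (by linarith) (by linarith) (by linarith)
      (by linarith) (by linarith) (by linarith)
    e_c := ?_
    s_ge := ?_
    s'_le := ?_
    m_ge := ?_
    s_full := hfull hs0.2 (cut_nonneg' _ _) (hcut ms (α / 2 - T) (α / 2) _ _ (3 / 4) le_rfl
      (by linarith) (by linarith) (by linarith) (by linarith) (by linarith))
    m_full := ?_
    c_full := ?_ }, fun τ hτ u hu => ?_⟩
  · intro u hu'
    simp only [Set.mem_insert_iff, Set.mem_singleton_iff] at hu'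
    rw [sqLe_iff, sqLe_iff]
    rcases hu' with rfl | rfl | rfl | rfl | rfl <;> exact ⟨hnn _ _ _, hle1 _ _ _⟩
  · intro u hu' w hw'
    simp only [Set.mem_insert_iff, Set.mem_singleton_iff] at hu' hw'
    rcases hu' with rfl | rfl | rfl | rfl | rfl <;>
      rcases hw' with rfl | rfl | rfl | rfl | rfl <;> exact cfc_commute_cfc _ _ S
  · rw [show L (3 / 4) (1 / 4 - 3 * T) (1 / 4 - 2 * T) * L cc (hc / 2) hc
      = L cc (hc / 2) hc * L (3 / 4) (1 / 4 - 3 * T) (1 / 4 - 2 * T) from (cfc_commute_cfc _ _ S).eq]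
    exact hzero _ _ _ _ _ _ (by linarith) (by linarith) (by linarith) (by linarith) (by linarith)
      (by linarith) (by linarith) (by linarith)
  · have := hval hs0.1 (cut_nonneg' _ _) (cut_nonneg' (3 / 4) _) (hcut ms (α / 2 - T) (α / 2) _ _ (3 / 4)
      le_rfl (by linarith) (by linarith) (by linarith) (by linarith) (by linarith))
      fun t ht => cut_mem (isClosed_Cl t) (hLmem _ _ _ t ht) _
    obtain ⟨w, hw, hp, hd⟩ := this
    exact ⟨w, hw, hp, fun d => le_trans (by linarith) (hd d)⟩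
  · obtain ⟨w, hw, hd⟩ := dim_of_dge hu.1
    set V := L (ms + 1 / 2) (1 / 2 - α / 2 - 2 * T) (1 / 2 - α / 2 - T)
    set P := L ms (α / 2) (α / 2 + T)
    have hSm := subset_Cl _ (Set.mem_insert S w)
    have hP := hLmem ms (α / 2) (α / 2 + T) _ hSm
    have hV := cut_mem (isClosed_Cl _) (hLmem (ms + 1 / 2) (1 / 2 - α / 2 - 2 * T)
      (1 / 2 - α / 2 - T) _ hSm) (1 / 4)
    refine ⟨insert S w, hw.insert S, posIn_of_nonneg (isClosed_Cl _) hP (hnn _ _ _), fun d => ?_⟩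
    have hPV : P * V = 0 := hzero _ _ _ _ _ _ (by linarith) (by linarith) (by linarith) (by linarith)
      (by linarith) (by linarith) (by linarith) (by linarith)
    have hPV' : P * cut (1 / 4) V = 0 := by
      simp only [cut, V, P, L]
      have hc : ∀ m u v w, Continuous fun t : ℝ => max (arcFn lam m u v t - w) 0 := fun m u v w =>
        ((continuous_arcFn ..).sub continuous_const).max continuous_const
      rw [← cfc_comp' _ _ S (by fun_prop) (continuous_arcFn ..).continuousOn,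
        ← cfc_mul _ _ S (continuous_arcFn ..).continuousOn (hc _ _ _ _).continuousOn,
        ← cfc_const_zero ℝ S]
      refine cfc_congr fun t _ => ?_
      rcases mul_eq_zero.1 (arcFn_mul_eq_zero (lam := lam) (m := ms) (n := ms + 1 / 2) (h₁ := α / 2)
        (h₂ := α / 2 + T) (k₁ := 1 / 2 - α / 2 - 2 * T) (k₂ := 1 / 2 - α / 2 - T) (by linarith)
        (by linarith) (by linarith) (by linarith) (by linarith) (by linarith) (by linarith)
        (by linarith) t) with h | h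
      · rw [h, zero_mul]
      · rw [h, zero_sub, max_eq_right (by norm_num), mul_zero]
    have h1 := d.add_eq (posIn_of_nonneg (isClosed_Cl _) hP (hnn _ _ _))
      (posIn_of_nonneg (isClosed_Cl _) hV (cut_nonneg' _ _)) hPV'
    have h2 := d.le_one (posIn_of_nonneg (isClosed_Cl _) (add_mem hP hV)
      (add_nonneg (hnn _ _ _) (cut_nonneg' _ _)))
    have h3 := hd _ (Set.subset_insert S w) d
    linarith
  all_goals
    have hm1 := hcut (3 / 4) (1 / 4 - 5 * T) (1 / 4 - 4 * T) (1 / 4 - 7 * T) (1 / 4 - 6 * T) 0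
      (by norm_num) (by linarith) (by linarith) (by linarith) (by linarith) (by linarith)
    have hc00 : ∀ m h₁ h₂, cut 0 (L m h₁ h₂) = L m h₁ h₂ := fun m h₁ h₂ => by
      simp only [cut, sub_zero]
      conv_rhs => rw [← cfc_id' ℝ (L m h₁ h₂) (IsSelfAdjoint.of_nonneg (hnn _ _ _))]
      exact cfc_congr fun t ht => max_eq_left (spectrum_nonneg_of_nonneg (hnn _ _ _) ht)
    rw [hc00] at hm1
  · have := hval hm0.1 (cut_nonneg' _ _) (hnn _ _ _) hm1 fun t ht => hLmem _ _ _ t ht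
    obtain ⟨w, hw, hp, hd⟩ := this
    exact ⟨w, hw, hp, fun d => le_trans (by linarith) (hd d)⟩
  · exact hfull hm0.2 (hnn _ _ _) hm1
  · refine hfull hc0.2 (hnn _ _ _) ((cut_le_self (hnn _ _ _) (by norm_num)).trans ?_)
    calc L cc (hc / 2) hc = (1 : ℝ) • L cc (hc / 2) hc := (one_smul _ _).symm
      _ ≤ (4 : ℝ) • L cc (hc / 2) hc := smul_le_smul_of_nonneg_right (by norm_num) (hnn _ _ _)
  · simp only [Set.mem_insert_iff, Set.mem_singleton_iff] at hu
    rcases hu with rfl | rfl | rfl | rfl | rfl <;> exact hnat τ hτ _ _ _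

omit [PartialOrder F] [StarOrderedRing F]

/-- Amplified letters, from the coin, comparison, mixtures and the scalar lemma. -/
theorem letters_of (hT : CoinTarget) (hC : CompareTarget) (hM : MixtureTarget)
    (hA : AmpScalarTarget) : LettersTarget := by
  intro F _ σ hS α θ hθ hθα hα
  let _ : PartialOrder F := CStarAlgebra.spectralOrder F
  have : StarOrderedRing F := CStarAlgebra.spectralOrderedRing F
  obtain ⟨a, b, hσa, hσb, ha, hb, ha1, hb1, hab, haf, hbf⟩ := hT F σ hS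
  obtain ⟨c, hc, hc3, hB⟩ := exists_bank hC σ hS a b hσa hσb ha hb ha1 hb1 hab haf hbf
  obtain ⟨lam, S, hP⟩ := exists_phase hM hA hS hc hc3 (fun r hr => (hB r hr).nonempty)
    (T := θ / 20) (by positivity)
  obtain ⟨L, -⟩ := letters_of_phase hθ hθα hα hP
  exact ⟨L⟩

end

end Vale.Agent.P095.Amen.Letters
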